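import Vale.Agent.Lib.P052.helper64.CliqueDefs

/-!
# P052: the clique bound (K3), kernel evaluation, part 0
-/

namespace Vale.Agent.Lib.P052.helper64

theorem chunk_0_1 : topRange 0 1 = true := by decide +kernel

theorem chunk_1_1 : topRange 1 1 = true := by decide +kernel

theorem chunk_2_1 : topRange 2 1 = true := by decide +kernel

theorem chunk_3_1 : topRange 3 1 = true := by decide +kernel

theorem chunk_4_1 : topRange 4 1 = true := by decide +kernel

theorem chunk_5_1 : topRange 5 1 = true := by decide +kernel

theorem chunk_6_1 : topRange 6 1 = true := by decide +kernel

theorem chunk_7_1 : topRange 7 1 = true := by decide +kernel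

theorem chunk_8_1 : topRange 8 1 = true := by decide +kernel

theorem chunk_9_1 : topRange 9 1 = true := by decide +kernel

theorem chunk_10_1 : topRange 10 1 = true := by decide +kernel

end Vale.Agent.Lib.P052.helper64
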