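import Vale.Agent.Lib.P052.helper64.CliqueDefs

/-!
# P052: the clique bound (K3), kernel evaluation, part 1
-/

namespace Vale.Agent.Lib.P052.helper64

theorem chunk_11_1 : topRange 11 1 = true := by decide +kernel

theorem chunk_12_1 : topRange 12 1 = true := by decide +kernel

theorem chunk_13_1 : topRange 13 1 = true := by decide +kernel

theorem chunk_14_1 : topRange 14 1 = true := by decide +kernel

theorem chunk_15_1 : topRange 15 1 = true := by decide +kernel

theorem chunk_16_1 : topRange 16 1 = true := by decide +kernel

theorem chunk_17_1 : topRange 17 1 = true := by decide +kernel

theorem chunk_18_1 : topRange 18 1 = true := by decide +kernel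

theorem chunk_19_1 : topRange 19 1 = true := by decide +kernel

theorem chunk_20_1 : topRange 20 1 = true := by decide +kernel

theorem chunk_21_1 : topRange 21 1 = true := by decide +kernel

theorem chunk_22_1 : topRange 22 1 = true := by decide +kernel

theorem chunk_23_1 : topRange 23 1 = true := by decide +kernel

end Vale.Agent.Lib.P052.helper64
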