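import Vale.Agent.Lib.P052.helper64.CliqueDefs

/-!
# P052: the clique bound (K3), kernel evaluation, part 2
-/

namespace Vale.Agent.Lib.P052.helper64

theorem chunk_24_1 : topRange 24 1 = true := by decide +kernel

theorem chunk_25_1 : topRange 25 1 = true := by decide +kernel

theorem chunk_26_1 : topRange 26 1 = true := by decide +kernel

theorem chunk_27_1 : topRange 27 1 = true := by decide +kernel

theorem chunk_28_1 : topRange 28 1 = true := by decide +kernel

theorem chunk_29_1 : topRange 29 1 = true := by decide +kernel

theorem chunk_30_1 : topRange 30 1 = true := by decide +kernel

theorem chunk_31_1 : topRange 31 1 = true := by decide +kernel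

theorem chunk_32_1 : topRange 32 1 = true := by decide +kernel

theorem chunk_33_1 : topRange 33 1 = true := by decide +kernel

theorem chunk_34_1 : topRange 34 1 = true := by decide +kernel

theorem chunk_35_1 : topRange 35 1 = true := by decide +kernel

theorem chunk_36_1 : topRange 36 1 = true := by decide +kernel

theorem chunk_37_1 : topRange 37 1 = true := by decide +kernel

theorem chunk_38_1 : topRange 38 1 = true := by decide +kernel

end Vale.Agent.Lib.P052.helper64
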