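import Vale.Agent.Lib.P052.helper64.CliqueDefs

/-!
# P052: the clique bound (K3), kernel evaluation, part 3
-/

namespace Vale.Agent.Lib.P052.helper64

theorem chunk_39_1 : topRange 39 1 = true := by decide +kernel

theorem chunk_40_1 : topRange 40 1 = true := by decide +kernel

theorem chunk_41_1 : topRange 41 1 = true := by decide +kernel

theorem chunk_42_1 : topRange 42 1 = true := by decide +kernel

theorem chunk_43_1 : topRange 43 1 = true := by decide +kernel

theorem chunk_44_1 : topRange 44 1 = true := by decide +kernel

theorem chunk_45_1 : topRange 45 1 = true := by decide +kernel

theorem chunk_46_1 : topRange 46 1 = true := by decide +kernel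

theorem chunk_47_1 : topRange 47 1 = true := by decide +kernel

theorem chunk_48_1 : topRange 48 1 = true := by decide +kernel

theorem chunk_49_1 : topRange 49 1 = true := by decide +kernel

theorem chunk_50_2 : topRange 50 2 = true := by decide +kernel

theorem chunk_52_2 : topRange 52 2 = true := by decide +kernel

theorem chunk_54_2 : topRange 54 2 = true := by decide +kernel

theorem chunk_56_2 : topRange 56 2 = true := by decide +kernel

theorem chunk_58_2 : topRange 58 2 = true := by decide +kernel

end Vale.Agent.Lib.P052.helper64
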