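import Vale.Agent.Lib.P052.helper64.CliqueDefs

/-!
# P052: the clique bound (K3), kernel evaluation, part 4
-/

namespace Vale.Agent.Lib.P052.helper64

theorem chunk_60_1 : topRange 60 1 = true := by decide +kernel

theorem chunk_61_1 : topRange 61 1 = true := by decide +kernel

theorem chunk_62_1 : topRange 62 1 = true := by decide +kernel

theorem chunk_63_1 : topRange 63 1 = true := by decide +kernel

theorem chunk_64_1 : topRange 64 1 = true := by decide +kernel

theorem chunk_65_1 : topRange 65 1 = true := by decide +kernel

theorem chunk_66_1 : topRange 66 1 = true := by decide +kernel

theorem chunk_67_1 : topRange 67 1 = true := by decide +kernel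

theorem chunk_68_1 : topRange 68 1 = true := by decide +kernel

theorem chunk_69_2 : topRange 69 2 = true := by decide +kernel

theorem chunk_71_1 : topRange 71 1 = true := by decide +kernel

theorem chunk_72_2 : topRange 72 2 = true := by decide +kernel

theorem chunk_74_2 : topRange 74 2 = true := by decide +kernel

theorem chunk_76_2 : topRange 76 2 = true := by decide +kernel

theorem chunk_78_2 : topRange 78 2 = true := by decide +kernel

end Vale.Agent.Lib.P052.helper64
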