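import Vale.Agent.Lib.P052.helper64.CliqueDefs

/-!
# P052: the clique bound (K3), kernel evaluation, part 5
-/

namespace Vale.Agent.Lib.P052.helper64

theorem chunk_80_2 : topRange 80 2 = true := by decide +kernel

theorem chunk_82_2 : topRange 82 2 = true := by decide +kernel

theorem chunk_84_2 : topRange 84 2 = true := by decide +kernel

theorem chunk_86_2 : topRange 86 2 = true := by decide +kernel

theorem chunk_88_2 : topRange 88 2 = true := by decide +kernel

theorem chunk_90_2 : topRange 90 2 = true := by decide +kernel

theorem chunk_92_3 : topRange 92 3 = true := by decide +kernel

theorem chunk_95_3 : topRange 95 3 = true := by decide +kernel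

theorem chunk_98_2 : topRange 98 2 = true := by decide +kernel

theorem chunk_100_2 : topRange 100 2 = true := by decide +kernel

theorem chunk_102_2 : topRange 102 2 = true := by decide +kernel

theorem chunk_104_2 : topRange 104 2 = true := by decide +kernel

theorem chunk_106_2 : topRange 106 2 = true := by decide +kernel

end Vale.Agent.Lib.P052.helper64
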