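import Vale.Agent.Lib.P052.helper64.CliqueDefs

/-!
# P052: the clique bound (K3), kernel evaluation, part 6
-/

namespace Vale.Agent.Lib.P052.helper64

theorem chunk_108_2 : topRange 108 2 = true := by decide +kernel

theorem chunk_110_2 : topRange 110 2 = true := by decide +kernel

theorem chunk_112_2 : topRange 112 2 = true := by decide +kernel

theorem chunk_114_2 : topRange 114 2 = true := by decide +kernel

theorem chunk_116_2 : topRange 116 2 = true := by decide +kernel

theorem chunk_118_3 : topRange 118 3 = true := by decide +kernel

theorem chunk_121_3 : topRange 121 3 = true := by decide +kernel

theorem chunk_124_3 : topRange 124 3 = true := by decide +kernel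

theorem chunk_127_4 : topRange 127 4 = true := by decide +kernel

theorem chunk_131_4 : topRange 131 4 = true := by decide +kernel

theorem chunk_135_4 : topRange 135 4 = true := by decide +kernel

theorem chunk_139_4 : topRange 139 4 = true := by decide +kernel

end Vale.Agent.Lib.P052.helper64
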