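import Vale.Agent.Lib.P052.helper64.CliqueDefs

/-!
# P052: the clique bound (K3), kernel evaluation, part 7
-/

namespace Vale.Agent.Lib.P052.helper64

theorem chunk_143_4 : topRange 143 4 = true := by decide +kernel

theorem chunk_147_5 : topRange 147 5 = true := by decide +kernel

theorem chunk_152_5 : topRange 152 5 = true := by decide +kernel

theorem chunk_157_6 : topRange 157 6 = true := by decide +kernel

theorem chunk_163_7 : topRange 163 7 = true := by decide +kernel

theorem chunk_170_9 : topRange 170 9 = true := by decide +kernel

theorem chunk_179_12 : topRange 179 12 = true := by decide +kernel

theorem chunk_191_13 : topRange 191 13 = true := by decide +kernel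

theorem chunk_204_19 : topRange 204 19 = true := by decide +kernel

theorem chunk_223_40 : topRange 223 40 = true := by decide +kernel

theorem chunk_263_40 : topRange 263 40 = true := by decide +kernel

theorem chunk_303_18 : topRange 303 18 = true := by decide +kernel

end Vale.Agent.Lib.P052.helper64
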