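import Vale.Agent.Lib.P052.helper64.CliqueDefs
import Vale.Agent.Lib.P052.helper64.CliqueC0
import Vale.Agent.Lib.P052.helper64.CliqueC1
import Vale.Agent.Lib.P052.helper64.CliqueC2
import Vale.Agent.Lib.P052.helper64.CliqueC3
import Vale.Agent.Lib.P052.helper64.CliqueC4
import Vale.Agent.Lib.P052.helper64.CliqueC5
import Vale.Agent.Lib.P052.helper64.CliqueC6
import Vale.Agent.Lib.P052.helper64.CliqueC7

/-!
# P052: the clique bound (K3)

`clique_le_five`: among the vertices `0..320` (the set `T`) no six are pairwise adjacent.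
-/

namespace Vale.Agent.Lib.P052.helper64

open Vale.Agent.Lib.P052

theorem all_top : AllBelow 321 := by
  have h0 : AllBelow 0 := allBelow_zero
  have h1 : AllBelow 1 := h0.ext chunk_0_1
  have h2 : AllBelow 2 := h1.ext chunk_1_1
  have h3 : AllBelow 3 := h2.ext chunk_2_1
  have h4 : AllBelow 4 := h3.ext chunk_3_1
  have h5 : AllBelow 5 := h4.ext chunk_4_1
  have h6 : AllBelow 6 := h5.ext chunk_5_1
  have h7 : AllBelow 7 := h6.ext chunk_6_1
  have h8 : AllBelow 8 := h7.ext chunk_7_1
  have h9 : AllBelow 9 := h8.ext chunk_8_1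
  have h10 : AllBelow 10 := h9.ext chunk_9_1
  have h11 : AllBelow 11 := h10.ext chunk_10_1
  have h12 : AllBelow 12 := h11.ext chunk_11_1
  have h13 : AllBelow 13 := h12.ext chunk_12_1
  have h14 : AllBelow 14 := h13.ext chunk_13_1
  have h15 : AllBelow 15 := h14.ext chunk_14_1
  have h16 : AllBelow 16 := h15.ext chunk_15_1
  have h17 : AllBelow 17 := h16.ext chunk_16_1
  have h18 : AllBelow 18 := h17.ext chunk_17_1
  have h19 : AllBelow 19 := h18.ext chunk_18_1
  have h20 : AllBelow 20 := h19.ext chunk_19_1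
  have h21 : AllBelow 21 := h20.ext chunk_20_1
  have h22 : AllBelow 22 := h21.ext chunk_21_1
  have h23 : AllBelow 23 := h22.ext chunk_22_1
  have h24 : AllBelow 24 := h23.ext chunk_23_1
  have h25 : AllBelow 25 := h24.ext chunk_24_1
  have h26 : AllBelow 26 := h25.ext chunk_25_1
  have h27 : AllBelow 27 := h26.ext chunk_26_1
  have h28 : AllBelow 28 := h27.ext chunk_27_1
  have h29 : AllBelow 29 := h28.ext chunk_28_1
  have h30 : AllBelow 30 := h29.ext chunk_29_1
  have h31 : AllBelow 31 := h30.ext chunk_30_1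
  have h32 : AllBelow 32 := h31.ext chunk_31_1
  have h33 : AllBelow 33 := h32.ext chunk_32_1
  have h34 : AllBelow 34 := h33.ext chunk_33_1
  have h35 : AllBelow 35 := h34.ext chunk_34_1
  have h36 : AllBelow 36 := h35.ext chunk_35_1
  have h37 : AllBelow 37 := h36.ext chunk_36_1
  have h38 : AllBelow 38 := h37.ext chunk_37_1
  have h39 : AllBelow 39 := h38.ext chunk_38_1
  have h40 : AllBelow 40 := h39.ext chunk_39_1
  have h41 : AllBelow 41 := h40.ext chunk_40_1
  have h42 : AllBelow 42 := h41.ext chunk_41_1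
  have h43 : AllBelow 43 := h42.ext chunk_42_1
  have h44 : AllBelow 44 := h43.ext chunk_43_1
  have h45 : AllBelow 45 := h44.ext chunk_44_1
  have h46 : AllBelow 46 := h45.ext chunk_45_1
  have h47 : AllBelow 47 := h46.ext chunk_46_1
  have h48 : AllBelow 48 := h47.ext chunk_47_1
  have h49 : AllBelow 49 := h48.ext chunk_48_1
  have h50 : AllBelow 50 := h49.ext chunk_49_1
  have h52 : AllBelow 52 := h50.ext chunk_50_2
  have h54 : AllBelow 54 := h52.ext chunk_52_2
  have h56 : AllBelow 56 := h54.ext chunk_54_2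
  have h58 : AllBelow 58 := h56.ext chunk_56_2
  have h60 : AllBelow 60 := h58.ext chunk_58_2
  have h61 : AllBelow 61 := h60.ext chunk_60_1
  have h62 : AllBelow 62 := h61.ext chunk_61_1
  have h63 : AllBelow 63 := h62.ext chunk_62_1
  have h64 : AllBelow 64 := h63.ext chunk_63_1
  have h65 : AllBelow 65 := h64.ext chunk_64_1
  have h66 : AllBelow 66 := h65.ext chunk_65_1
  have h67 : AllBelow 67 := h66.ext chunk_66_1
  have h68 : AllBelow 68 := h67.ext chunk_67_1
  have h69 : AllBelow 69 := h68.ext chunk_68_1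
  have h71 : AllBelow 71 := h69.ext chunk_69_2
  have h72 : AllBelow 72 := h71.ext chunk_71_1
  have h74 : AllBelow 74 := h72.ext chunk_72_2
  have h76 : AllBelow 76 := h74.ext chunk_74_2
  have h78 : AllBelow 78 := h76.ext chunk_76_2
  have h80 : AllBelow 80 := h78.ext chunk_78_2
  have h82 : AllBelow 82 := h80.ext chunk_80_2
  have h84 : AllBelow 84 := h82.ext chunk_82_2
  have h86 : AllBelow 86 := h84.ext chunk_84_2
  have h88 : AllBelow 88 := h86.ext chunk_86_2
  have h90 : AllBelow 90 := h88.ext chunk_88_2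
  have h92 : AllBelow 92 := h90.ext chunk_90_2
  have h95 : AllBelow 95 := h92.ext chunk_92_3
  have h98 : AllBelow 98 := h95.ext chunk_95_3
  have h100 : AllBelow 100 := h98.ext chunk_98_2
  have h102 : AllBelow 102 := h100.ext chunk_100_2
  have h104 : AllBelow 104 := h102.ext chunk_102_2
  have h106 : AllBelow 106 := h104.ext chunk_104_2
  have h108 : AllBelow 108 := h106.ext chunk_106_2
  have h110 : AllBelow 110 := h108.ext chunk_108_2
  have h112 : AllBelow 112 := h110.ext chunk_110_2
  have h114 : AllBelow 114 := h112.ext chunk_112_2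
  have h116 : AllBelow 116 := h114.ext chunk_114_2
  have h118 : AllBelow 118 := h116.ext chunk_116_2
  have h121 : AllBelow 121 := h118.ext chunk_118_3
  have h124 : AllBelow 124 := h121.ext chunk_121_3
  have h127 : AllBelow 127 := h124.ext chunk_124_3
  have h131 : AllBelow 131 := h127.ext chunk_127_4
  have h135 : AllBelow 135 := h131.ext chunk_131_4
  have h139 : AllBelow 139 := h135.ext chunk_135_4
  have h143 : AllBelow 143 := h139.ext chunk_139_4
  have h147 : AllBelow 147 := h143.ext chunk_143_4
  have h152 : AllBelow 152 := h147.ext chunk_147_5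
  have h157 : AllBelow 157 := h152.ext chunk_152_5
  have h163 : AllBelow 163 := h157.ext chunk_157_6
  have h170 : AllBelow 170 := h163.ext chunk_163_7
  have h179 : AllBelow 179 := h170.ext chunk_170_9
  have h191 : AllBelow 191 := h179.ext chunk_179_12
  have h204 : AllBelow 204 := h191.ext chunk_191_13
  have h223 : AllBelow 223 := h204.ext chunk_204_19
  have h263 : AllBelow 263 := h223.ext chunk_223_40
  have h303 : AllBelow 303 := h263.ext chunk_263_40
  have h321 : AllBelow 321 := h303.ext chunk_303_18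
  exact h321

theorem clique_le_five : ∀ P : Finset (Fin 416), P ⊆ T →
    (∀ u ∈ P, ∀ v ∈ P, u ≠ v → adjBit u.val v.val = true) → P.card ≤ 5 := by
  intro P hPT hadj
  by_contra hcard
  obtain ⟨Q, hQP, hQcard⟩ := Finset.exists_subset_card_eq (show 6 ≤ P.card by omega)
  have hT : ∀ u ∈ Q, u.val < 321 := by
    intro u hu
    have h1 := hPT (hQP hu)
    rw [T, Finset.mem_filter] at h1
    exact h1.2
  apply top_sound all_top
  refine ⟨Q.image Fin.val, ?_, ?_, ?_⟩
  · rw [Finset.card_image_of_injective _ Fin.val_injective]; exact hQcard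
  · intro a ha
    obtain ⟨u, hu, rfl⟩ := Finset.mem_image.1 ha
    rw [Nat.testBit_two_pow_sub_one]
    exact decide_eq_true (hT u hu)
  · intro a ha b hb hab
    obtain ⟨u, hu, rfl⟩ := Finset.mem_image.1 ha
    obtain ⟨w, hw, rfl⟩ := Finset.mem_image.1 hb
    have hw512 : w.val < 512 := lt_trans w.isLt (by norm_num)
    rw [row_testBit _ _ (hT u hu) hw512]
    exact hadj u (hQP hu) w (hQP hw) (by rintro rfl; exact lt_irrefl _ hab)

end Vale.Agent.Lib.P052.helper64
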